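import Vale.Agent.P190.Bdl.B5

/-! Disproof of the small Cohen-Macaulay module conjecture. -/

namespace Vale.Agent.Results.P190.Disproof

universe v

/-- There is a complete Noetherian local domain `R` of Krull dimension `3`, containing the field
of rational numbers, such that every finitely generated `R`-module `M` (in any universe) has depth
less than `3`: every `M`-regular sequence in the maximal ideal of `R` has length `< 3 = dim R`.
So `R` has no small Cohen-Macaulay module. -/
theorem result : ∃ (R : Type) (_ : CommRing R) (_ : IsDomain R) (_ : IsLocalRing R),
    IsNoetherianRing R ∧ IsAdicComplete (IsLocalRing.maximalIdeal R) R ∧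
    Nonempty (Algebra ℚ R) ∧ ringKrullDim R = 3 ∧
    ∀ (M : Type v) [AddCommGroup M] [Module R M] [Module.Finite R M] (rs : List R),
      (∀ r ∈ rs, r ∈ IsLocalRing.maximalIdeal R) →
      RingTheory.Sequence.IsRegular M rs → rs.length < 3 :=
  Vale.Agent.P190.D.main_three

end Vale.Agent.Results.P190.Disproof
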