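import Vale.Agent.P190.Bdl.B5

/-! Normal counterexamples to the small Cohen-Macaulay module conjecture in all dimensions
at least three. -/

namespace Vale.Agent.Results.P190.DisproofNormal

universe v

/-- For every `d ≥ 3` there is a complete Noetherian normal local domain `R` of Krull dimension
`d`, a module-finite extension of the power series ring `ℂ[[x₁,…,x_d]]`, such that every finitely
generated `R`-module has depth less than `d`: every `M`-regular sequence in the maximal ideal of
`R` has length `< d = dim R`. So `R` has no small Cohen-Macaulay module. -/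
theorem result (d : ℕ) (hd : 3 ≤ d) :
    ∃ (R : Type) (_ : CommRing R) (_ : IsDomain R) (_ : IsLocalRing R)
      (_ : Algebra (MvPowerSeries (Fin d) ℂ) R),
      Module.Finite (MvPowerSeries (Fin d) ℂ) R ∧
      Function.Injective (algebraMap (MvPowerSeries (Fin d) ℂ) R) ∧
      IsNoetherianRing R ∧ IsIntegrallyClosed R ∧
      IsAdicComplete (IsLocalRing.maximalIdeal R) R ∧ ringKrullDim R = (d : ℕ) ∧
      ∀ (M : Type v) [AddCommGroup M] [Module R M] [Module.Finite R M] (rs : List R),
        (∀ r ∈ rs, r ∈ IsLocalRing.maximalIdeal R) →
        RingTheory.Sequence.IsRegular M rs → rs.length < d :=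
  Vale.Agent.P190.D.main_normal d hd

end Vale.Agent.Results.P190.DisproofNormal
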